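import Vale.Agent.P194.SC

/-! Thin triangles for graphical small cancellation groups. -/

namespace Vale.Agent.P194

open Equiv Function

theorem orb_cross {D : Type} [Fintype D] [DecidableEq D] (π : Perm D) {d a b : D} (Z : D → Prop)
    (ha : a ∈ orb π d) (hb : b ∈ orb π d) (h1 : Z a) (h2 : ¬ Z b) :
    ∃ c ∈ orb π d, Z c ∧ ¬ Z (π c) := by
  obtain ⟨n, rfl⟩ := (((mem_orb π).1 ha).symm.trans ((mem_orb π).1 hb)).exists_nat_pow_eq
  clear hb
  induction n with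
  | zero => exact absurd h1 h2
  | succ n ih =>
    by_cases c : Z ((π ^ n) a)
    · exact ⟨_, (pow_mem_orb π n).2 ha, c, by rwa [pow_succ', Perm.mul_apply] at h2⟩
    · exact ih c

theorem orb_cross2 {D : Type} [Fintype D] [DecidableEq D] (π : Perm D) {d a b : D} (Z : D → Prop)
    [DecidablePred Z] (ha : a ∈ orb π d) (hb : b ∈ orb π d) (h1 : Z a) (h2 : ¬ Z b) :
    (2 : ℚ) ≤ ∑ e ∈ orb π d, if (Z e ↔ Z (π e)) then 0 else 1 := by
  obtain ⟨c, c1, c2, c3⟩ := orb_cross π Z ha hb h1 h2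
  obtain ⟨c', c1', c2', c3'⟩ := orb_cross π (fun e => ¬ Z e) hb ha h2 (not_not.2 h1)
  refine le_trans ?_ (orb_ge2 π (fun e _ => by split_ifs <;> norm_num) c1 c1'
    (by rintro rfl; exact c2' c2))
  rw [if_neg (by tauto), if_neg (by tauto)]
  norm_num

variable {S V W G : Type} [Group G] {Step : V → S × Bool → V → Prop}
  {St : W → S × Bool → W → Prop} {γ : S × Bool → G} {x y : W} {g : ℕ}

theorem thin_count (H : SCHyp Step g) (hg : 150 ≤ g) {Δ : Dg St γ x y} (h : Δ.Red) {ι : V → W}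
    {π : Δ.D → V} (O : Δ.D → Prop) {T : Type} [Nonempty T] (τ : Δ.D → T) (s₁ s₂ : Δ.D)
    (u : T → G → ℚ) (o1 : O Δ.star) (o2 : ∀ d, O (Δ.φ d) ↔ O d)
    (o3 : ∀ d, O d → d ∈ orb Δ.φ Δ.star) (o4 : ∀ d, ¬ O d → Δ.J Step ι π d)
    (o5 : O s₁) (o6 : O s₂)
    (hτ : ∀ d, O d → d ≠ Δ.star → Δ.φ d ≠ Δ.star → Δ.φ d ≠ s₁ → Δ.φ d ≠ s₂ → τ (Δ.φ d) = τ d)
    (u1 : ∀ t z a, u t (z * γ a) ≤ u t z + 1)
    (u2 : ∀ d, O d → d ≠ Δ.star → u (τ d) (Δ.el (Δ.φ d)) = u (τ d) (Δ.el d) + 1)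
    (d₀ : Δ.D) (h₀ : ¬ O d₀) :
    ∃ e ∈ orb Δ.φ d₀, ∃ e' ∈ orb Δ.φ d₀, O (Δ.α e) ∧ O (Δ.α e') ∧ τ (Δ.α e) ≠ τ (Δ.α e') := by
  classical
  by_contra hcon
  let Sp : Δ.D → Prop := fun d => d = Δ.star ∨ d = s₁ ∨ d = s₂
  have SpO : ∀ d, Sp d → O d := by rintro d (rfl | rfl | rfl) <;> assumption
  let ω₁ : Δ.D → ℚ := fun d => if Sp d then 12 else if O d then 6 else
    if Δ.σ (Δ.σ d) = d ∧ ¬ Sp (Δ.σ d) then 6 else
    if O (Δ.σ d) then (if O (Δ.σ⁻¹ d) then 0 else 3) else (if O (Δ.σ⁻¹ d) then 3 else 4)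
  let gn : Δ.D → ℚ := fun d => if d = Δ.star then 12 else if O d then 0 else 6 - ω₁ d
  have p1 : ∀ e, 0 ≤ ω₁ e := fun e => by simp only [ω₁]; split_ifs <;> norm_num
  have p2 : ∀ e, 0 ≤ gn e := fun e => by
    simp only [gn, ω₁]
    split_ifs with c1 c2 c3 <;> first | exact absurd (SpO _ c3) c2 | norm_num
  have opow : ∀ n d, O ((Δ.φ ^ n) d) ↔ O d := by
    intro n d
    induction n with
    | zero => rfl
    | succ n ih => rw [pow_succ', Perm.mul_apply, o2, ih]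
  have oorb : ∀ d e, e ∈ orb Δ.φ d → (O e ↔ O d) := by
    intro d e he
    obtain ⟨n, rfl⟩ := ((mem_orb _).1 he).exists_nat_pow_eq
    exact opow n d
  have nst : ∀ e, ¬ O e → e ≠ Δ.star := by rintro e he rfl; exact he o1
  have gcase : ∀ e, ¬ O e →
      (Δ.φ (Δ.α (Δ.φ e)) = Δ.α e ∧ (O (Δ.α (Δ.φ e)) ↔ O (Δ.α e)) ∧
        (O (Δ.α e) → τ (Δ.α e) = τ (Δ.α (Δ.φ e)))) ∨
      (2 ≤ gn (Δ.φ e) ∧ (O (Δ.α e) ∨ O (Δ.α (Δ.φ e)) → 3 ≤ gn (Δ.φ e)) ∧
        (O (Δ.α e) → O (Δ.α (Δ.φ e)) → 6 ≤ gn (Δ.φ e))) := by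
    intro e he
    have he' : ¬ O (Δ.φ e) := by rwa [o2]
    by_cases c : Δ.σ (Δ.σ (Δ.φ e)) = Δ.φ e ∧ ¬ Sp (Δ.σ (Δ.φ e))
    · left
      have a1 := Δ.σσ c.1
      have a2 : O (Δ.α (Δ.φ e)) ↔ O (Δ.α e) := by rw [← a1, o2]
      refine ⟨a1, a2, fun ho => ?_⟩
      have a3 := c.2
      rw [Δ.σ_apply] at a3
      simp only [Sp, not_or] at a3
      rw [← a1]
      exact hτ _ (a2.2 ho) (Δ.alpha_ne (nst _ he')) a3.1 a3.2.1 a3.2.2
    · right
      have a1 : Δ.σ⁻¹ (Δ.φ e) = Δ.α e := by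
        rw [Perm.inv_eq_iff_eq, Δ.σ_apply, Δ.invol]
      have a2 : O (Δ.σ (Δ.φ e)) ↔ O (Δ.α (Δ.φ e)) := by rw [Δ.σ_apply, o2]
      simp only [gn, ω₁, if_neg (nst _ he'), if_neg he', if_neg (fun hs => he' (SpO _ hs)),
        if_neg c, a1, a2]
      by_cases c1 : O (Δ.α e) <;> by_cases c2 : O (Δ.α (Δ.φ e)) <;> simp [c1, c2] <;> norm_num
  have faceA : ∀ d, ¬ O d → (∃ e ∈ orb Δ.φ d, ∃ e' ∈ orb Δ.φ d, O (Δ.α e) ∧ O (Δ.α e') ∧
      τ (Δ.α e) ≠ τ (Δ.α e')) → 12 ≤ ∑ e ∈ orb Δ.φ d, gn e := by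
    rintro d hd ⟨e₁, m1, e₂, m2, a1, a2, a3⟩
    have k1 := orb_cross2 Δ.φ (fun e => O (Δ.α e) ∧ τ (Δ.α e) = τ (Δ.α e₁)) m1 m2 ⟨a1, rfl⟩
      (fun hc => a3 hc.2.symm)
    have k2 := orb_cross2 Δ.φ (fun e => O (Δ.α e) ∧ τ (Δ.α e) ≠ τ (Δ.α e₁)) m2 m1 ⟨a2, a3.symm⟩
      (fun hc => hc.2 rfl)
    rw [← orb_sum_apply]
    refine le_trans ?_ (Finset.sum_le_sum (f := fun e =>
      3 * (if ((O (Δ.α e) ∧ τ (Δ.α e) = τ (Δ.α e₁)) ↔
        (O (Δ.α (Δ.φ e)) ∧ τ (Δ.α (Δ.φ e)) = τ (Δ.α e₁))) then (0 : ℚ) else 1) +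
      3 * (if ((O (Δ.α e) ∧ τ (Δ.α e) ≠ τ (Δ.α e₁)) ↔
        (O (Δ.α (Δ.φ e)) ∧ τ (Δ.α (Δ.φ e)) ≠ τ (Δ.α e₁))) then (0 : ℚ) else 1)) fun e he => ?_)
    · rw [Finset.sum_add_distrib, ← Finset.mul_sum, ← Finset.mul_sum]
      linarith
    · have q := p2 (Δ.φ e)
      rcases gcase e (by rwa [oorb d e he]) with ⟨-, b2, b3⟩ | ⟨b1, b2, b3⟩
      · by_cases c : O (Δ.α e)
        · rw [← b3 c, b2]; simpa using q
        · rw [b2]; simpa [c] using q
      · by_cases c1 : O (Δ.α e) <;> by_cases c2 : O (Δ.α (Δ.φ e))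
        · have := b3 c1 c2
          split_ifs <;> linarith
        · have := b2 (.inl c1)
          by_cases c3 : τ (Δ.α e) = τ (Δ.α e₁) <;> simp [c1, c2, c3] <;> linarith
        · have := b2 (.inr c2)
          by_cases c3 : τ (Δ.α (Δ.φ e)) = τ (Δ.α e₁) <;> simp [c1, c2, c3] <;> linarith
        · simpa [c1, c2] using q
  have faceB : ∀ d, ¬ O d → ¬ (∃ e ∈ orb Δ.φ d, ∃ e' ∈ orb Δ.φ d, O (Δ.α e) ∧ O (Δ.α e') ∧
      τ (Δ.α e) ≠ τ (Δ.α e')) → 25 ≤ ∑ e ∈ orb Δ.φ d, gn e := by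
    intro d hd hn
    obtain ⟨X, hX⟩ : ∃ X, ∀ e ∈ orb Δ.φ d, O (Δ.α e) → τ (Δ.α e) = X := by
      by_cases c : ∃ e ∈ orb Δ.φ d, O (Δ.α e)
      · obtain ⟨e₁, m1, a1⟩ := c
        exact ⟨τ (Δ.α e₁), fun e he ho => by
          by_contra hc; exact hn ⟨e, he, e₁, m1, ho, a1, hc⟩⟩
      · exact ⟨Classical.arbitrary T, fun e he ho => absurd ⟨e, he, ho⟩ c⟩
    have no : ∀ e ∈ orb Δ.φ d, ¬ O e := fun e he => by rwa [oorb d e he]
    have k1 := J_card H h (fun e he => o4 e (no e he))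
    have k2 := orb_window Δ.φ d (fun e => if O (Δ.α e) then 0 else 2) gn 6 (fun e _ => p2 e) (by
      intro e he
      by_cases c : O (Δ.α e)
      · left; simp [c]
      right
      by_contra hc
      push Not at hc
      simp only [if_neg c] at hc
      have m : ∀ i, (Δ.φ ^ i) e ∈ orb Δ.φ d := fun i => (pow_mem_orb _ i).2 he
      have m2 : ∀ i < 6, Δ.φ (Δ.α ((Δ.φ ^ (i + 1)) e)) = Δ.α ((Δ.φ ^ i) e) := by
        intro i hi
        have := hc i hi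
        rw [pow_succ', Perm.mul_apply] at this ⊢
        rcases gcase _ (no _ (m i)) with b | b
        · exact b.1
        · exact absurd b.1 (not_le.2 this)
      have m3 : ∀ i < 7, ¬ O (Δ.α ((Δ.φ ^ i) e)) := by
        intro i
        induction i with
        | zero => exact fun _ => c
        | succ i ih =>
          intro hi
          rw [← o2, m2 i (by omega)]
          exact ih (by omega)
      exact J_run H h (d := e) (fun i _ => o4 _ (no _ (m i))) (fun i hi => o4 _ (m3 i hi)) m2)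
    have k3 : ∑ e ∈ orb Δ.φ d, (u X (Δ.el (Δ.φ e)) - u X (Δ.el e)) ≤
        ∑ e ∈ orb Δ.φ d, ((if O (Δ.α e) then 0 else 2) - 1) := by
      refine Finset.sum_le_sum fun e he => ?_
      have ne := nst e (no e he)
      split_ifs with c
      · have := u2 _ c (Δ.alpha_ne ne)
        rw [hX e he c, Δ.hel, Δ.invol, ← Δ.hel] at this
        linarith
      · rw [Δ.hel2 e (h.nodum e ne)]
        have := u1 X (Δ.el e) (Δ.lab e)
        linarith
    rw [Finset.sum_sub_distrib, Finset.sum_sub_distrib,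
      orb_sum_apply Δ.φ d (fun e => u X (Δ.el e))] at k3
    simp only [Finset.sum_const, nsmul_eq_mul, mul_one] at k3
    have : (150 : ℚ) ≤ (orb Δ.φ d).card := by exact_mod_cast hg.trans k1
    push_cast at k2
    linarith
  have := Δ.count h ω₁ (fun e => gn e - if e = d₀ then 13 else 0) 12 (by norm_num) ?_ ?_
  · have e : ∀ e, ω₁ e + (gn e - if e = d₀ then 13 else 0) ≤
        6 + (if e = Δ.star then 18 else 0) + (if e = s₁ then 6 else 0) +
          (if e = s₂ then 6 else 0) - (if e = d₀ then 13 else 0) := by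
      intro e
      suffices ω₁ e + gn e ≤ 6 + (if e = Δ.star then 18 else 0) + (if e = s₁ then 6 else 0) +
          (if e = s₂ then 6 else 0) by linarith
      by_cases c : O e
      · simp only [gn, ω₁, if_pos c, Sp]
        split_ifs <;> first | (exfalso; tauto) | norm_num
      · simp only [gn, if_neg c, if_neg (nst e c)]
        split_ifs <;> linarith
    have e2 := Finset.sum_le_sum (s := Finset.univ) fun i _ => e i
    simp only [Finset.sum_sub_distrib, Finset.sum_add_distrib, Finset.sum_const,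
      Finset.card_univ, nsmul_eq_mul, Finset.sum_ite_eq', Finset.mem_univ, if_true] at this e2
    linarith
  · intro d
    by_cases c : ∃ e ∈ orb Δ.σ d, Sp e
    · obtain ⟨e, he, hs⟩ := c
      refine le_trans ?_ (orb_ge1 _ (fun e _ => p1 e) he)
      simp [ω₁, hs]
    push Not at c
    have fix : ∀ e ∈ orb Δ.σ d, e ≠ Δ.σ e := by
      intro e he hc
      have c1 := c e he
      simp only [Sp, not_or] at c1
      have a1 : Δ.φ (Δ.α e) = e := hc.symm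
      have a2 : O e ↔ O (Δ.α e) := by rw [← o2 (Δ.α e), a1]
      by_cases c2 : O e
      · have b1 := hτ _ (a2.1 c2) (Δ.alpha_ne c1.1) (by rw [a1]; exact c1.1)
          (by rw [a1]; exact c1.2.1) (by rw [a1]; exact c1.2.2)
        have b2 := u2 _ c2 c1.1
        have b3 := u2 _ (a2.1 c2) (Δ.alpha_ne c1.1)
        rw [← b1, a1] at b3
        rw [Δ.hel] at b2
        linarith
      · have := J_nb H h (o4 _ (by rwa [← a2])) (o4 _ (by rwa [a1]))
        rw [a1, Δ.hlab e (h.nodum e c1.1), linv_linv] at this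
        exact this rfl
    have m0 := self_mem_orb Δ.σ d
    have m1 := (apply_mem_orb Δ.σ).2 m0
    have m2 := (apply_mem_orb Δ.σ).2 m1
    by_cases b2 : Δ.σ (Δ.σ d) = d
    · refine le_trans ?_ (orb_ge2 _ (fun e _ => p1 e) m0 m1 (fix d m0))
      simp only [ω₁, if_neg (c _ m0), if_neg (c _ m1), b2, c _ m0, c _ m1, not_false_eq_true,
        and_self, if_true, if_false]
      split_ifs <;> norm_num
    have b3 : ∀ e ∈ orb Δ.σ d, Δ.σ (Δ.σ e) ≠ e := by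
      intro e he hc
      obtain ⟨n, rfl⟩ := ((mem_orb _).1 he).exists_nat_pow_eq
      apply b2
      apply (Δ.σ ^ n).injective
      rw [← hc]
      simp only [← Perm.mul_apply, ← mul_assoc, ← pow_succ, ← pow_succ']
    have mi : ∀ e ∈ orb Δ.σ d, Δ.σ⁻¹ e ∈ orb Δ.σ d := fun e he => by
      rw [← apply_mem_orb]; simpa using he
    have q : ∀ e ∈ orb Δ.σ d, ω₁ e = if O e then 6 else
        if O (Δ.σ e) then (if O (Δ.σ⁻¹ e) then 0 else 3) else (if O (Δ.σ⁻¹ e) then 3 else 4) := by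
      intro e he
      simp only [ω₁, if_neg (c _ he), b3 e he, false_and, if_false]
    by_cases c1 : ∃ e ∈ orb Δ.σ d, O e
    · obtain ⟨e, he, ho⟩ := c1
      by_cases c2 : ∃ e' ∈ orb Δ.σ d, O e' ∧ e ≠ e'
      · obtain ⟨e', he', ho', ne⟩ := c2
        refine le_trans ?_ (orb_ge2 _ (fun e _ => p1 e) he he' ne)
        rw [q _ he, q _ he', if_pos ho, if_pos ho']; norm_num
      have c3 : ∀ e' ∈ orb Δ.σ d, e ≠ e' → ¬ O e' := fun e' he' ne ho' => c2 ⟨e', he', ho', ne⟩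
      have n1 := (apply_mem_orb Δ.σ).2 he
      have n2 := (apply_mem_orb Δ.σ).2 n1
      have n3 := mi _ he
      have n4 := mi _ n3
      have r1 : e ≠ Δ.σ⁻¹ e := fun hc => fix e he (by rw [Perm.eq_inv_iff_eq] at hc; exact hc.symm)
      have r2 : e ≠ Δ.σ⁻¹ (Δ.σ⁻¹ e) := fun hc => b3 e he (by
        rwa [Perm.eq_inv_iff_eq, Perm.eq_inv_iff_eq] at hc)
      have r3 : Δ.σ e ≠ Δ.σ⁻¹ e := fun hc => b3 e he (by rwa [Perm.eq_inv_iff_eq] at hc)
      refine le_trans ?_ (orb_ge3 _ (fun e _ => p1 e) he n1 n3 (fix e he) r1 r3)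
      have r4 : Δ.σ⁻¹ (Δ.σ e) = e := by simp
      have r5 : Δ.σ (Δ.σ⁻¹ e) = e := by simp
      rw [q _ he, q _ n1, q _ n3, r4, r5]
      simp only [ho, c3 _ n1 (fix e he), c3 _ n2 (b3 e he).symm, c3 _ n3 r1, c3 _ n4 r2,
        if_true, if_false]
      norm_num
    · push Not at c1
      refine le_trans ?_ (orb_ge3 _ (fun e _ => p1 e) m0 m1 m2 (fix d m0) (Ne.symm b2)
        (fix _ m1))
      have q' : ∀ e ∈ orb Δ.σ d, ω₁ e = 4 := fun e he => by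
        rw [q e he, if_neg (c1 _ he), if_neg (c1 _ ((apply_mem_orb _).2 he)),
          if_neg (c1 _ (mi _ he))]
      rw [q' _ m0, q' _ m1, q' _ m2]; norm_num
  · intro d
    rw [Finset.sum_sub_distrib, Finset.sum_ite_eq']
    by_cases c : O d
    · rw [if_neg (fun hc => h₀ ((oorb _ _ hc).2 c)), sub_zero]
      have : Δ.star ∈ orb Δ.φ d := by rw [orb_eq _ (o3 d c)]; exact self_mem_orb _ _
      refine le_trans ?_ (orb_ge1 _ (fun e _ => p2 e) this)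
      simp [gn]
    by_cases c' : ∃ e ∈ orb Δ.φ d, ∃ e' ∈ orb Δ.φ d, O (Δ.α e) ∧ O (Δ.α e') ∧
      τ (Δ.α e) ≠ τ (Δ.α e')
    · rw [if_neg (fun hc => hcon (by rwa [orb_eq _ hc])), sub_zero]
      exact faceA d c c'
    · have := faceB d c c'
      split_ifs <;> linarith

end Vale.Agent.P194
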