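import Vale.Agent.P186.Thin
import Vale.Agent.P194.Main

/-! Thin triangles in the Cayley graph, and failure of residual finiteness. -/

namespace Vale.Agent.P194

open Equiv Function

variable {S V : Type} {Step : V → S × Bool → V → Prop} {g : ℕ}

theorem gen_surj (z : Gp Step) : ∃ u : List (S × Bool), (u.map (gen Step)).prod = z := by
  obtain ⟨⟨u⟩, rfl⟩ := QuotientGroup.mk_surjective z
  exact ⟨u, gen_prod u⟩

theorem thin_word [Nonempty S] [Fintype V] (H : SCHyp Step g) (hg : 150 ≤ g)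
    (ρ : Gp Step → Gp Step → ℕ) (tri : ∀ a b c, ρ a c ≤ ρ a b + ρ b c) (ρ0 : ∀ a, ρ a a = 0)
    (ρ1 : ∀ a s, ρ a (a * gen Step s) ≤ 1) :
    ∃ δ : ℕ, ∀ (x : Gp Step) (w : List (S × Bool)) (P : ℕ → Gp Step) (n₁ n₂ : ℕ),
      (∀ j, P j = x * ((w.take j).map (gen Step)).prod) → (w.map (gen Step)).prod = 1 →
      n₁ ≤ n₂ → n₂ ≤ w.length → ρ (P 0) (P n₁) = n₁ → ρ (P n₁) (P n₂) = n₂ - n₁ →
      ρ (P n₂) (P w.length) = w.length - n₂ →
      ∀ j ≤ n₁, ∃ i, n₁ ≤ i ∧ ρ (P j) (P i) ≤ δ := by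
  classical
  obtain ⟨f, hf, -⟩ := exists_dev H (by omega)
  have ρw : ∀ (u : List (S × Bool)) a, ρ a (a * (u.map (gen Step)).prod) ≤ u.length := by
    intro u
    induction u with
    | nil => intro a; simp [ρ0]
    | cons s u ih =>
      intro a
      have := tri a (a * gen Step s) (a * gen Step s * (u.map (gen Step)).prod)
      have := ρ1 a s
      have := ih (a * gen Step s)
      rw [List.map_cons, List.prod_cons, ← mul_assoc, List.length_cons]
      omega
  choose wd hwd using @gen_surj S V Step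
  refine ⟨Finset.univ.sup fun v : V × V => (wd ((f v.1)⁻¹ * f v.2)).length, ?_⟩
  intro x w P n₁ n₂ hP hw h12 h2 g1 g2 g3 j hj
  rcases hj.eq_or_lt with rfl | hj
  · exact ⟨j, le_rfl, by simp [ρ0]⟩
  have Pstep : ∀ j (hj : j < w.length), P (j + 1) = P j * gen Step w[j] := by
    intro j hj
    rw [hP, hP, List.take_succ_eq_append_getElem hj, List.map_append, List.prod_append, mul_assoc]
    simp
  have Ple : ∀ i k, i + k ≤ w.length → ρ (P i) (P (i + k)) ≤ k := by
    intro i k
    induction k with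
    | zero => intro _; simp [ρ0]
    | succ k ih =>
      intro hk
      have := tri (P i) (P (i + k)) (P (i + k + 1))
      have := ih (by omega)
      have := ρ1 (P (i + k)) (w[i + k]'(by omega))
      rw [← Pstep] at this
      rw [← add_assoc]
      omega
  have geo : ∀ A B j, A ≤ j → j ≤ B → B ≤ w.length → ρ (P A) (P B) = B - A →
      ρ (P A) (P j) = j - A := by
    intro A B j a1 a2 a3 a4
    have b1 := Ple A (j - A) (by omega)
    have b2 := Ple j (B - j) (by omega)
    rw [Nat.add_sub_cancel' a1] at b1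
    rw [Nat.add_sub_cancel' a2] at b2
    have := tri (P A) (P j) (P B)
    omega
  obtain ⟨Δ, h⟩ := exists_red gen_linv (vanKampen H.sym H.surj hw)
  obtain ⟨c₀, hc₀⟩ : ∃ c₀, c₀ * Δ.el (Δ.φ Δ.star) = x := ⟨x * (Δ.el (Δ.φ Δ.star))⁻¹, by simp⟩
  have hQ := pos_ind h (fun d l => ∃ j ≤ w.length, l = w.drop j ∧ d = (Δ.φ ^ (j + 1)) Δ.star ∧
      c₀ * Δ.el d = P j) ⟨0, by omega, rfl, by simp, by simp [hP, hc₀]⟩ (by
    rintro d l hd ⟨j, a1, a2, a3, a4⟩
    have lt : j < w.length := by
      by_contra hc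
      rw [List.drop_eq_nil_of_le (by omega)] at a2
      simp at a2
    rw [List.drop_eq_getElem_cons lt] at a2
    obtain ⟨b1, b2⟩ := List.cons.inj a2
    refine ⟨j + 1, lt, b2, by rw [pow_succ', Perm.mul_apply, ← a3], ?_⟩
    rw [Δ.hel2 d (h.nodum d hd), ← mul_assoc, a4, Pstep j lt, b1])
  let O : Δ.D → Prop := fun d => ∃ l, Δ.pos d = .inr l
  let idx : Δ.D → ℕ := fun d => w.length - Sum.elim (fun _ => 0) List.length (Δ.pos d)
  have o2 : ∀ d, O (Δ.φ d) ↔ O d := by
    intro d
    by_cases c : d = Δ.star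
    · subst c; exact iff_of_true ⟨_, Δ.hx⟩ ⟨_, Δ.hy⟩
    have := Δ.hstep d (h.nodum d c)
    constructor
    · rintro ⟨l, hl⟩; rw [hl] at this; exact ⟨_, this.to_inr⟩
    · rintro ⟨l, hl⟩; rw [hl] at this; obtain ⟨l', e, -⟩ := this.of_inr; exact ⟨_, e⟩
  have opow : ∀ n d, O ((Δ.φ ^ n) d) ↔ O d := by
    intro n d
    induction n with
    | zero => rfl
    | succ n ih => rw [pow_succ', Perm.mul_apply, o2, ih]
  have o1 : O Δ.star := ⟨_, Δ.hy⟩
  have hO : ∀ d, O d → idx d ≤ w.length ∧ d = (Δ.φ ^ (idx d + 1)) Δ.star ∧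
      c₀ * Δ.el d = P (idx d) := by
    rintro d ⟨l, hl⟩
    obtain ⟨j, a1, a2, a3, a4⟩ := hQ d l hl
    have : idx d = j := by
      simp only [idx, hl, a2, Sum.elim_inr, List.length_drop]; omega
    rw [this]; exact ⟨a1, a3, a4⟩
  have hO' : ∀ d, O d → d ≠ Δ.star → idx (Δ.φ d) = idx d + 1 := by
    rintro d ⟨l, hl⟩ hd
    have := Δ.hstep d (h.nodum d hd)
    rw [hl] at this
    obtain ⟨l', e, rfl⟩ := this.of_inr
    obtain ⟨j, a1, a2, -⟩ := hQ d _ hl
    have := congrArg List.length a2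
    simp only [idx, hl, e, Sum.elim_inr, List.length_drop, List.length_cons] at this ⊢
    omega
  have hidx : ∀ j ≤ w.length, idx ((Δ.φ ^ (j + 1)) Δ.star) = j := by
    intro j
    induction j with
    | zero => intro _; simp [idx, Δ.hx]
    | succ j ih =>
      intro hj
      rw [pow_succ', Perm.mul_apply, hO' _ ((opow _ _).2 o1), ih (by omega)]
      intro hc
      have := ih (by omega)
      rw [hc] at this
      simp only [idx, Δ.hy, Sum.elim_inr, List.length_nil] at this
      omega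
  let bs : ℕ → ℕ := fun j => if j < n₁ then 0 else if j < n₂ then n₁ else n₂
  have u2 : ∀ d, O d → d ≠ Δ.star → (ρ (P (bs (idx d))) (c₀ * Δ.el (Δ.φ d)) : ℚ) =
      ρ (P (bs (idx d))) (c₀ * Δ.el d) + 1 := by
    intro d hd hs
    have a1 := hO _ ((o2 d).2 hd)
    rw [a1.2.2, (hO d hd).2.2, hO' d hd hs]
    have a2 := a1.1
    rw [hO' d hd hs] at a2
    generalize idx d = j at a2 ⊢
    norm_cast
    simp only [bs]
    split_ifs with c1 c2
    · rw [geo 0 n₁ (j + 1) (by omega) (by omega) (by omega) g1,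
        geo 0 n₁ j (by omega) (by omega) (by omega) g1]; omega
    · rw [geo n₁ n₂ (j + 1) (by omega) (by omega) (by omega) g2,
        geo n₁ n₂ j (by omega) (by omega) (by omega) g2]; omega
    · rw [geo n₂ _ (j + 1) (by omega) (by omega) le_rfl g3,
        geo n₂ _ j (by omega) (by omega) le_rfl g3]; omega
  obtain ⟨v₀, -⟩ := H.surj (Classical.arbitrary S, true)
  let π : Δ.D → V := fun d => Sum.elim id (fun _ => v₀) (Δ.pos d)
  have o4 : ∀ d, ¬ O d → Δ.J Step Sum.inl π d := by
    intro d hd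
    have c : d ≠ Δ.star := by rintro rfl; exact hd o1
    have := Δ.hstep d (h.nodum d c)
    rcases hp : Δ.pos d with v | l
    · rw [hp] at this
      obtain ⟨v', e1, e2⟩ := this.of_inl
      simp only [Dg.J, π, hp, e1, Sum.elim_inl, id]
      exact ⟨c, e2, trivial, trivial⟩
    · exact absurd ⟨l, hp⟩ hd
  have bs0 : ∀ i, bs i ≠ 0 → n₁ ≤ i := by
    intro i hi
    by_contra hc
    exact hi (if_pos (by omega))
  obtain ⟨d, hd⟩ : ∃ d, d = (Δ.φ ^ (j + 1)) Δ.star := ⟨_, rfl⟩
  have d1 : O d := by rw [hd]; exact (opow _ _).2 o1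
  have d2 : idx d = j := by rw [hd]; exact hidx j (by omega)
  have d3 : d ≠ Δ.star := by
    intro hc
    rw [hc] at d2
    simp only [idx, Δ.hy, Sum.elim_inr, List.length_nil] at d2
    omega
  have d4 : c₀ * Δ.el (Δ.φ (Δ.α d)) = P j := by rw [Δ.hel, Δ.invol, (hO d d1).2.2, d2]
  have d5 : bs (idx d) = 0 := by rw [d2]; exact if_pos hj
  by_cases c : O (Δ.α d)
  · have a1 := u2 d d1 d3
    have a2 := u2 _ c (Δ.alpha_ne d3)
    have a3 : bs (idx (Δ.α d)) ≠ 0 := by
      intro hc
      rw [hc, Δ.hel, Δ.invol, ← Δ.hel d] at a2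
      rw [d5] at a1
      linarith
    refine ⟨idx (Δ.φ (Δ.α d)), ?_, ?_⟩
    · have := bs0 _ a3
      rw [hO' _ c (Δ.alpha_ne d3)]; omega
    · rw [← (hO _ ((o2 _).2 c)).2.2, d4, ρ0]; omega
  obtain ⟨e, he, a1, a2⟩ : ∃ e ∈ orb Δ.φ (Δ.α d), O (Δ.α e) ∧ bs (idx (Δ.α e)) ≠ 0 := by
    obtain ⟨e, m1, e', m2, a1, a2, a3⟩ := thin_count H hg h O (fun d => bs (idx d))
      ((Δ.φ ^ (n₁ + 1)) Δ.star) ((Δ.φ ^ (n₂ + 1)) Δ.star)
      (fun t z => ρ (P t) (c₀ * z)) o1 o2
      (fun d hd => by rw [(hO d hd).2.1]; exact (pow_mem_orb _ _).2 (self_mem_orb _ _)) o4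
      ((opow _ _).2 o1) ((opow _ _).2 o1) (by
        intro d hd hs _ c1 c2
        have a1 := (hO _ ((o2 d).2 hd)).2.1
        have b1 : idx (Δ.φ d) ≠ n₁ := fun hc => c1 (by rw [a1, hc])
        have b2 : idx (Δ.φ d) ≠ n₂ := fun hc => c2 (by rw [a1, hc])
        rw [hO' d hd hs] at b1 b2 ⊢
        simp only [bs]
        split_ifs <;> omega) (by
        intro t z a
        have := tri (P t) (c₀ * z) (c₀ * z * gen Step a)
        have := ρ1 (c₀ * z) a
        rw [← mul_assoc]
        norm_cast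
        omega) u2 (Δ.α d) c
    by_cases c : bs (idx (Δ.α e)) = 0
    · exact ⟨e', m2, a2, fun hc => a3 (c.trans hc.symm)⟩
    · exact ⟨e, m1, a1, c⟩
  refine ⟨idx (Δ.α e), bs0 _ a2, ?_⟩
  have cst : ∀ n a, ¬ O a → Δ.el ((Δ.φ ^ n) a) = Δ.el a * ((f (π a))⁻¹ * f (π ((Δ.φ ^ n) a))) := by
    intro n a ha
    induction n with
    | zero => simp
    | succ n ih =>
      have b := o4 _ (by rwa [opow] : ¬ O ((Δ.φ ^ n) a))
      rw [pow_succ', Perm.mul_apply, Δ.hel2 _ (h.nodum _ b.1), ih, hf _ _ _ b.2.1]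
      simp only [mul_assoc]
  have m1 : Δ.φ e ∈ orb Δ.φ (Δ.φ (Δ.α d)) := by
    rw [orb_eq _ ((apply_mem_orb _).2 (self_mem_orb _ _)), apply_mem_orb]; exact he
  obtain ⟨n, hn⟩ := ((mem_orb _).1 m1).exists_nat_pow_eq
  have := cst n _ (by rwa [o2] : ¬ O (Δ.φ (Δ.α d)))
  rw [hn] at this
  rw [← (hO _ a1).2.2, ← Δ.hel, this, ← mul_assoc, d4, ← hwd ((f _)⁻¹ * f _)]
  refine (ρw _ _).trans ?_
  exact Finset.le_sup (f := fun v : V × V => (wd ((f v.1)⁻¹ * f v.2)).length)
    (Finset.mem_univ (π (Δ.φ (Δ.α d)), π (Δ.φ e)))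

theorem walk_word {X : Set (Gp Step)} (hX : X = Set.range fun s => gen Step (s, true))
    {x y : Gp Step} (p : (SimpleGraph.mulCayley X).Walk x y) :
    ∃ w : List (S × Bool), w.length = p.length ∧
      ∀ j, p.getVert j = x * ((w.take j).map (gen Step)).prod := by
  induction p with
  | nil => exact ⟨[], rfl, fun j => by simp⟩
  | @cons a b c hab p ih =>
    obtain ⟨w, h1, h2⟩ := ih
    obtain ⟨s, hs⟩ : ∃ s, b = a * gen Step s := by
      obtain ⟨-, z, hz, e⟩ := (SimpleGraph.mulCayley_adj' _ _ _).1 hab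
      rw [hX] at hz
      obtain ⟨s, rfl⟩ := hz
      rcases e with e | e
      · exact ⟨_, e.symm⟩
      · exact ⟨linv (s, true), by rw [gen_linv, e]; simp⟩
    refine ⟨s :: w, by simp [h1], fun j => ?_⟩
    cases j with
    | zero => simp
    | succ j => rw [SimpleGraph.Walk.getVert_cons_succ, h2, hs]; simp [mul_assoc]

theorem thin_cayley [Nonempty S] [Fintype V] (H : SCHyp Step g) (hg : 150 ≤ g)
    {X : Set (Gp Step)} (hX : X = Set.range fun s => gen Step (s, true)) :
    ∃ δ : ℕ, ∀ (x y z : Gp Step) (p : (SimpleGraph.mulCayley X).Walk x y)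
      (q : (SimpleGraph.mulCayley X).Walk y z) (r : (SimpleGraph.mulCayley X).Walk z x),
      p.length = (SimpleGraph.mulCayley X).dist x y →
      q.length = (SimpleGraph.mulCayley X).dist y z →
      r.length = (SimpleGraph.mulCayley X).dist z x →
      ∀ v ∈ p.support, ∃ u, (u ∈ q.support ∨ u ∈ r.support) ∧
        (SimpleGraph.mulCayley X).dist v u ≤ δ := by
  have adj : ∀ a s, (SimpleGraph.mulCayley X).Adj a (a * gen Step s) ∨ a = a * gen Step s := by
    rintro a ⟨s, b⟩
    by_cases c : a = a * gen Step (s, b)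
    · exact .inr c
    left
    refine (SimpleGraph.mulCayley_adj' _ _ _).2 ⟨c, gen Step (s, true), hX ▸ ⟨s, rfl⟩, ?_⟩
    cases b
    · right
      rw [show gen Step (s, false) = (gen Step (s, true))⁻¹ from gen_linv (s, true)]; simp
    · left; rfl
  have conn : (SimpleGraph.mulCayley X).Connected := by
    have : ∀ (u : List (S × Bool)) a,
        (SimpleGraph.mulCayley X).Reachable a (a * (u.map (gen Step)).prod) := by
      intro u
      induction u with
      | nil => intro a; simp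
      | cons s u ih =>
        intro a
        rw [List.map_cons, List.prod_cons, ← mul_assoc]
        refine SimpleGraph.Reachable.trans ?_ (ih _)
        rcases adj a s with h | h
        · exact h.reachable
        · rw [← h]
    refine ⟨fun a b => ?_⟩
    obtain ⟨u, hu⟩ := gen_surj (a⁻¹ * b)
    simpa [hu] using this u a
  obtain ⟨δ, hδ⟩ := thin_word H hg (SimpleGraph.mulCayley X).dist
    (fun a b c => conn.dist_triangle) (fun a => SimpleGraph.dist_self) (fun a s => by
      rcases adj a s with h | h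
      · exact (SimpleGraph.dist_eq_one_iff_adj.2 h).le
      · rw [← h]; simp)
  refine ⟨δ, fun x y z p q r hp hq hr v hv => ?_⟩
  obtain ⟨w, h1, h2⟩ := walk_word hX (p.append (q.append r))
  simp only [SimpleGraph.Walk.length_append] at h1
  have e0 : (p.append (q.append r)).getVert w.length = x := by
    rw [h1, ← SimpleGraph.Walk.length_append, ← SimpleGraph.Walk.length_append,
      SimpleGraph.Walk.getVert_length]
  have e1 : (p.append (q.append r)).getVert p.length = y := by
    simp [SimpleGraph.Walk.getVert_append]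
  have e2 : (p.append (q.append r)).getVert (p.length + q.length) = z := by
    simp [SimpleGraph.Walk.getVert_append]
  obtain ⟨j, rfl, hj⟩ := SimpleGraph.Walk.mem_support_iff_exists_getVert.1 hv
  obtain ⟨i, a1, a2⟩ := hδ x w _ p.length (p.length + q.length) h2
    (by have := h2 w.length; rw [e0, List.take_length] at this; simpa using this)
    (by omega) (by omega) (by rw [e1, SimpleGraph.Walk.getVert_zero, hp])
    (by rw [e1, e2, ← hq]; omega) (by rw [e2, e0, ← hr]; omega) j hj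
  refine ⟨(p.append (q.append r)).getVert i, ?_, ?_⟩
  · rw [SimpleGraph.Walk.getVert_append, if_neg (by omega),
      ← SimpleGraph.Walk.mem_support_append_iff]
    exact SimpleGraph.Walk.getVert_mem_support _ _
  · rwa [SimpleGraph.Walk.getVert_append', if_pos hj] at a2

theorem not_rf {K S G : Type} [Field K] [Fintype K] [Fintype S] [DecidableEq S] [Group G]
    (Z Θ : Matrix S S (MonoidAlgebra K G)) (η : S → MonoidAlgebra K G)
    (h1 : Z * Θ = 1) (h2 : η ≠ 0) (h3 : Matrix.vecMul η Θ = 0) : ¬ Group.ResiduallyFinite G := by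
  classical
  intro hG
  obtain ⟨s, hs⟩ := Function.ne_iff.1 h2
  obtain ⟨x, hx⟩ : ∃ x, (η s).coeff x ≠ 0 := by
    by_contra hc
    push Not at hc
    exact hs (by ext x; simp [hc])
  have : ∀ T : Finset G, ∃ N : Subgroup G, N.Normal ∧ N.FiniteIndex ∧ ∀ t ∈ T, t ≠ 1 → t ∉ N := by
    intro T
    induction T using Finset.induction_on with
    | empty => exact ⟨⊤, inferInstance, inferInstance, by simp⟩
    | insert a T _ ih =>
      obtain ⟨N, n1, n2, n3⟩ := ih
      by_cases c : a = 1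
      · refine ⟨N, n1, n2, fun t ht h => ?_⟩
        rcases Finset.mem_insert.1 ht with rfl | ht
        · exact absurd c h
        · exact n3 t ht h
      obtain ⟨M, hM⟩ := Group.exists_finiteIndexNormalSubgroup_notMem a c
      refine ⟨N ⊓ M.toSubgroup, inferInstance, inferInstance, fun t ht h hc => ?_⟩
      rcases Finset.mem_insert.1 ht with rfl | ht
      · exact hM hc.2
      · exact n3 t ht h hc.1
  obtain ⟨N, n1, n2, n3⟩ := this ((η s).coeff.support.image (x⁻¹ * ·))
  let ρ := MonoidAlgebra.mapDomainRingHom K (QuotientGroup.mk' N)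
  haveI : Finite (MonoidAlgebra K (G ⧸ N)) :=
    Finite.of_injective (fun y => (y.coeff : G ⧸ N → K))
      (DFunLike.coe_injective.comp MonoidAlgebra.coeff_injective)
  have a1 : Z.map ρ * Θ.map ρ = 1 := by
    rw [← Matrix.map_mul, h1, Matrix.map_one _ (map_zero ρ) (map_one ρ)]
  have a2 := mul_eq_one_comm.1 a1
  have a3 : Matrix.vecMul (ρ ∘ η) (Θ.map ρ) = 0 := by
    ext1 t
    rw [← RingHom.map_vecMul, h3]; simp
  have a4 : ρ ∘ η = 0 := by
    rw [← Matrix.vecMul_one (ρ ∘ η), ← a2, ← Matrix.vecMul_vecMul, a3, Matrix.zero_vecMul]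
  have a5 := congrArg (fun y => y.coeff (QuotientGroup.mk' N x)) (congrFun a4 s)
  change Finsupp.mapDomain (QuotientGroup.mk' N) (η s).coeff _ = 0 at a5
  rw [Finsupp.mapDomain, Finsupp.sum, Finsupp.finsetSum_apply, Finset.sum_eq_single x] at a5
  · exact hx (by simpa using a5)
  · intro y hy hne
    apply Finsupp.single_eq_of_ne
    intro hc
    refine n3 (x⁻¹ * y) (Finset.mem_image_of_mem _ hy) (fun h => hne ?_) (QuotientGroup.eq.1 hc)
    exact (eq_of_inv_mul_eq_one h).symm
  · intro h; exact absurd (Finsupp.mem_support_iff.2 hx) h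

end Vale.Agent.P194
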